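import Crest.Agent.X212.Lens17.Defs

/-!
# Row 212 (helper17): the gap on a Farey edge (Frøyshov inequality and matching for lens spaces)
-/

set_option autoImplicit false
set_option linter.unusedSectionVars false

namespace Crest.Agent.X212.Lens17

/-- `K·Σ` for the class `(j,j')` on the edge `(p,q) → (p',q')` -/
def kap (p q p' q' : ℕ) (j j' : ℤ) : ℤ := p * (2 * j' + 1 - q') - p' * (2 * j + 1 - q)

/-- degree of a negative definite 2-handle map, `K² = -κ²/(p p')` -/
def deg (p p' : ℕ) (κ : ℤ) : ℚ := (1 - (κ : ℚ) ^ 2 / (p * p')) / 4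

/-- the gap -/
def G (p q p' q' : ℕ) (j j' : ℤ) : ℚ :=
  d p' q' j' - d p q j - deg p p' (kap p q p' q' j j')

/-- a Farey edge between positive slopes (the second may be `∞ = (1,0)`) -/
structure Edge (p q p' q' : ℕ) : Prop where
  hp : 0 < p
  det : q * p' = p * q' + 1

namespace Edge
variable {p q p' q' : ℕ} (e : Edge p q p' q')
include e

theorem hp' : 0 < p' := Nat.pos_of_ne_zero fun h => by have := e.det; simp [h] at this
theorem hq : 0 < q := Nat.pos_of_ne_zero fun h => by have := e.det; simp [h] at this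
theorem detZ : (q : ℤ) * p' = p * q' + 1 := by exact_mod_cast e.det
theorem detQ : (q : ℚ) * p' = p * q' + 1 := by exact_mod_cast e.det

theorem cop : Nat.Coprime p q := by
  rw [← Nat.isCoprime_iff_coprime]; exact ⟨-q', p', by linear_combination e.detZ⟩

theorem cop' : Nat.Coprime p' q' := by
  rw [← Nat.isCoprime_iff_coprime]; exact ⟨q, -p, by linear_combination e.detZ⟩

theorem swap (h : 0 < q') : Edge q' p' q p := ⟨h, by have := e.det; nlinarith⟩

theorem G_per (j j' c : ℤ) : G p q p' q' (j + p * c) (j' + p' * c) = G p q p' q' j j' := by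
  rw [G, G, d_per, d_per]; congr 2; simp only [kap]; ring

theorem G_step (j j' : ℤ) : G p q p' q' (j + q) (j' + q') =
    G p q p' q' j j' + 2 * (((j / p : ℤ) : ℚ) - ((j' / p' : ℤ) : ℚ)) := by
  have h1 := shift e.hp e.cop j
  have h2 := shift e.hp' e.cop' j'
  have := e.hp; have := e.hp'
  have : (p : ℚ) ≠ 0 := by positivity
  have : (p' : ℚ) ≠ 0 := by positivity
  have k : kap p q p' q' (j + q) (j' + q') = kap p q p' q' j j' - 2 := by
    simp only [kap]; linear_combination (-2) * e.detZ
  have k2 : (kap p q p' q' j j' : ℚ) = 2 * (p * j' - p' * j) + p - p' + 1 := by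
    simp only [kap]; push_cast; linear_combination e.detQ
  rw [sub_eq_iff_eq_add, cast_emod] at h1 h2
  rw [G, G, h1, h2, k, deg, deg]; push_cast; rw [k2]; field_simp; ring

/-- the `Phi` gap is the gap of the swapped edge -/
theorem Phi_gap (h : 0 < q') (j j' : ℤ) :
    Phi p' q' j' - Phi p q j - deg p p' (kap p q p' q' j j') = G q' p' q p j' j := by
  have := e.hp; have := e.hp'; have := e.hq
  have : (p : ℚ) ≠ 0 := by positivity
  have : (p' : ℚ) ≠ 0 := by positivity
  have : (q : ℚ) ≠ 0 := by positivity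
  have : (q' : ℚ) ≠ 0 := by positivity
  have k : (kap p q p' q' j j' : ℚ) = p * (2 * j' + 1 - p' - q') - p' * (2 * j + 1 - p - q) := by
    simp only [kap]; push_cast; ring
  have k' : (kap q' p' q p j' j : ℚ) = q' * (2 * j + 1 - p - q) - q * (2 * j' + 1 - p' - q') := by
    simp only [kap]; push_cast; ring
  rw [G, Phi, Phi, deg, deg, k, k', Q, Q]
  generalize (2 * (j : ℚ) + 1 - p - q) = a
  generalize (2 * (j' : ℚ) + 1 - p' - q') = a'
  have D := e.detQ
  field_simp
  linear_combination (a ^ 2 * p' * q' - a' ^ 2 * p * q) * D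

end Edge

theorem G_add {p q p' q' : ℕ} (e : Edge p q p' q') (j j' : ℤ) :
    G p (q + p) p' (q' + p') j j' = G p q p' q' j j' := by
  rw [G, G, d_add e.hp e.cop, d_add e.hp' e.cop']; congr 2; simp only [kap]; push_cast; ring

theorem G_zero {p q p' q' : ℕ} (e : Edge p q p' q') : G p q p' q' 0 0 = 0 := by
  induction hn : p + q + p' + q' using Nat.strong_induction_on generalizing p q p' q' with
  | _ n ih =>
    have red : ∀ {p q p' q' : ℕ}, Edge p q p' q' → p + q + p' + q' = n → p' ≤ q' →
        G p q p' q' 0 0 = 0 := fun {p q p' q'} e hn h => by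
      obtain ⟨r', rfl⟩ := Nat.exists_eq_add_of_le' h
      have hq : p ≤ q := by
        by_contra hh
        have := e.det; have := e.hp'; nlinarith
      obtain ⟨r, rfl⟩ := Nat.exists_eq_add_of_le' hq
      have e' : Edge p r p' r' := ⟨e.hp, by have := e.det; nlinarith⟩
      rw [G_add e', ih _ (by have := e.hp; omega) e' rfl]
    rcases q'.eq_zero_or_pos with rfl | hq'
    · have hd := e.det
      rw [mul_zero, zero_add] at hd
      obtain rfl := Nat.eq_one_of_mul_eq_one_right hd
      obtain rfl := Nat.eq_one_of_mul_eq_one_left hd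
      have := e.hp
      have : (p : ℚ) ≠ 0 := by positivity
      rw [G, d_pos p one_pos, d_one, d_one]
      simp only [kap, deg, Q, Int.zero_emod]; push_cast; field_simp; ring
    rcases le_or_gt p' q' with h | h
    · exact red e hn h
    · have hq : q ≤ p := by
        by_contra hh
        have := e.det; nlinarith
      rw [← red (e.swap hq') (by omega) hq, ← e.Phi_gap hq', G,
        Phi_eq_d e.hp e.hq e.cop le_rfl (by have := e.hp; omega),
        Phi_eq_d e.hp' hq' e.cop' le_rfl (by omega)]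

namespace Edge
variable {p q p' q' : ℕ} (e : Edge p q p' q')
include e

theorem fl_ge {s : ℤ} (hs : 0 ≤ s) : s * q' / p' ≤ s * q / p := by
  have hp : (0 : ℤ) < p := by have := e.hp; omega
  have hp' : (0 : ℤ) < p' := by have := e.hp'; omega
  rw [Int.le_ediv_iff_mul_le hp]
  have h := Int.ediv_mul_le (s * q') hp'.ne'
  have D := e.detZ
  generalize s * q' / p' = c at *
  by_contra hh
  have : s * q + 1 ≤ c * p := by omega
  nlinarith

theorem fl_le {s : ℤ} (hs : s ≤ 0) : s * q / p ≤ s * q' / p' := by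
  have hp : (0 : ℤ) < p := by have := e.hp; omega
  have hp' : (0 : ℤ) < p' := by have := e.hp'; omega
  rw [Int.le_ediv_iff_mul_le hp']
  have h := Int.ediv_mul_le (s * q) hp.ne'
  have D := e.detZ
  generalize s * q / p = c at *
  by_contra hh
  have : s * q' + 1 ≤ c * p' := by omega
  nlinarith

theorem fl_eq {s : ℤ} (h0 : -(p' : ℤ) < s) (h1 : s < p) : s * q / p = s * q' / p' := by
  have hp : (0 : ℤ) < p := by have := e.hp; omega
  have hp' : (0 : ℤ) < p' := by have := e.hp'; omega
  have D := e.detZ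
  rcases le_total 0 s with hs | hs
  · refine le_antisymm ?_ (e.fl_ge hs)
    rw [Int.le_ediv_iff_mul_le hp']
    have h := Int.ediv_mul_le (s * q) hp.ne'
    generalize s * q / p = c at *
    by_contra hh
    have : s * q' + 1 ≤ c * p' := by omega
    nlinarith
  · refine le_antisymm (e.fl_le hs) ?_
    rw [Int.le_ediv_iff_mul_le hp]
    have h := Int.ediv_mul_le (s * q') hp'.ne'
    generalize s * q' / p' = c at *
    by_contra hh
    have : s * q + 1 ≤ c * p := by omega
    nlinarith

theorem fl_p : (p : ℤ) * q' / p' < p * q / p := by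
  have hp : (0 : ℤ) < p := by have := e.hp; omega
  have hp' : (0 : ℤ) < p' := by have := e.hp'; omega
  rw [Int.mul_ediv_cancel_left _ hp.ne', Int.ediv_lt_iff_lt_mul hp']
  have D := e.detZ
  omega

theorem fl_p' : (-p' : ℤ) * q / p < -p' * q' / p' := by
  have hp : (0 : ℤ) < p := by have := e.hp; omega
  have hp' : (0 : ℤ) < p' := by have := e.hp'; omega
  rw [show (-p' : ℤ) * q' = p' * (-q') by ring, Int.mul_ediv_cancel_left _ hp'.ne',
    Int.ediv_lt_iff_lt_mul hp]
  have D := e.detZ
  nlinarith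

theorem g_step (t : ℤ) : G p q p' q' ((t + 1) * q) ((t + 1) * q') =
    G p q p' q' (t * q) (t * q') + 2 * (((t * q / p : ℤ) : ℚ) - ((t * q' / p' : ℤ) : ℚ)) := by
  rw [add_mul, add_mul, one_mul, one_mul, e.G_step]

theorem g_main (t : ℤ) : ∃ k : ℕ, G p q p' q' (t * q) (t * q') = 2 * k ∧
    (k = 0 ↔ -(p' : ℤ) < t ∧ t ≤ p) := by
  have hp := e.hp; have hp' := e.hp'
  induction t using Int.induction_on with
  | zero => exact ⟨0, by simpa using G_zero e, by simp; omega⟩
  | succ t ih =>
    obtain ⟨k, h, hk⟩ := ih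
    obtain ⟨m, hm⟩ := Int.eq_ofNat_of_zero_le (sub_nonneg.2 (e.fl_ge (s := t) (by omega)))
    refine ⟨k + m, ?_, ?_⟩
    · rw [e.g_step, h, ← Int.cast_sub, hm]; push_cast; ring
    · rcases lt_trichotomy (t : ℤ) p with h1 | h1 | h1
      · have := e.fl_eq (s := t) (by omega) h1; omega
      · have := e.fl_p; rw [← h1] at this; rw [← h1] at hm ⊢; omega
      · omega
  | pred t ih =>
    obtain ⟨k, h, hk⟩ := ih
    obtain ⟨m, hm⟩ :=
      Int.eq_ofNat_of_zero_le (sub_nonneg.2 (e.fl_le (s := -(t : ℤ) - 1) (by omega)))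
    have st := e.g_step (-(t : ℤ) - 1)
    rw [sub_add_cancel, h] at st
    refine ⟨k + m, ?_, ?_⟩
    · have : (((-(t : ℤ) - 1) * q' / p' : ℤ) : ℚ) - (((-(t : ℤ) - 1) * q / p : ℤ) : ℚ) = m := by
        rw [← Int.cast_sub, hm]; simp
      push_cast at this st ⊢; linarith
    · rcases lt_trichotomy (-(p' : ℤ)) (-(t : ℤ) - 1) with h1 | h1 | h1
      · have := e.fl_eq h1 (by omega); omega
      · have := e.fl_p'; rw [← h1] at hm; omega
      · omega

/-- GAP: the gap is an even natural number, zero iff `|κ| < p + p'` -/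
theorem gap (j j' : ℤ) : ∃ k : ℕ, G p q p' q' j j' = 2 * k ∧
    (k = 0 ↔ |kap p q p' q' j j'| < p + p') := by
  obtain ⟨k, h, hk⟩ := e.g_main (j * p' - j' * p)
  have D := e.detZ
  refine ⟨k, ?_, ?_⟩
  · rw [← h, ← e.G_per ((j * p' - j' * p) * q) _ (q * j' - q' * j)]
    congr 1
    · linear_combination (-j) * D
    · linear_combination (-j') * D
  · rw [hk, abs_lt, show kap p q p' q' j j' = -2 * (j * p' - j' * p) + p - p' + 1 by
      simp only [kap]; linear_combination D]
    omega

theorem gap_nonneg (j j' : ℤ) : d p q j + deg p p' (kap p q p' q' j j') ≤ d p' q' j' := by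
  obtain ⟨k, h, -⟩ := e.gap j j'
  have : (0 : ℚ) ≤ k := by positivity
  rw [G] at h; linarith

theorem sharp_iff (j j' : ℤ) : d p q j + deg p p' (kap p q p' q' j j') = d p' q' j' ↔
    |kap p q p' q' j j'| < p + p' := by
  obtain ⟨k, h, hk⟩ := e.gap j j'
  rw [← hk, G] at *
  constructor
  · intro h'; have : (k : ℚ) = 0 := by linarith
    exact_mod_cast this
  · rintro rfl; simp at h; linarith

theorem kap_eq (j j' : ℤ) : kap p q p' q' j j' = -2 * (j * p' - j' * p) + p - p' + 1 := by
  simp only [kap]; linear_combination e.detZ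

theorem small_tgt (j' : ℤ) : ∃ j, |kap p q p' q' j j'| < p + p' := by
  have hp : (0 : ℤ) < p := by have := e.hp; omega
  have hp' : (0 : ℤ) < p' := by have := e.hp'; omega
  refine ⟨j' * p / p', ?_⟩
  have h0 := Int.emod_nonneg (j' * p) hp'.ne'
  have h1 := Int.emod_lt_of_pos (j' * p) hp'
  have h2 := Int.emod_add_mul_ediv (j' * p) p'
  rw [abs_lt, e.kap_eq, mul_comm (j' * p / p')]
  omega

theorem small_src (j : ℤ) : ∃ j', |kap p q p' q' j j'| < p + p' := by
  have hp : (0 : ℤ) < p := by have := e.hp; omega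
  have hp' : (0 : ℤ) < p' := by have := e.hp'; omega
  refine ⟨j * p' / p, ?_⟩
  have h0 := Int.emod_nonneg (j * p') hp.ne'
  have h1 := Int.emod_lt_of_pos (j * p') hp
  have h2 := Int.emod_add_mul_ediv (j * p') p
  rw [abs_lt, e.kap_eq, mul_comm (j * p' / p)]
  omega

/-- MATCH, target side -/
theorem match_tgt (j' : ℤ) : ∃ j, d p q j + deg p p' (kap p q p' q' j j') = d p' q' j' :=
  (e.small_tgt j').imp fun _ h => (e.sharp_iff _ _).2 h

/-- MATCH, source side -/
theorem match_src (j : ℤ) : ∃ j', d p q j + deg p p' (kap p q p' q' j j') = d p' q' j' :=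
  (e.small_src j).imp fun _ h => (e.sharp_iff _ _).2 h

/-- `λ = q n' - q' n` -/
theorem kap_swap (j j' : ℤ) :
    kap q' p' q p j' j = 1 - (q * (2 * j' + 1 - q') - q' * (2 * j + 1 - q)) := by
  simp only [kap]; linear_combination e.detZ

/-- the `Psi` gap: a natural number, zero iff the pair is peg free (`|q n' - q' n| ≤ q + q' - 2`) -/
theorem Psi_gap (h : 0 < q') (j j' : ℤ) : ∃ k : ℕ,
    Psi p' q' j' - Psi p q j - deg p p' (kap p q p' q' j j') = k ∧
    (k = 0 ↔ |(q : ℤ) * (2 * j' + 1 - q') - q' * (2 * j + 1 - q)| + 1 < q + q') := by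
  obtain ⟨a, ha, ha'⟩ := (e.swap h).gap j' j
  obtain ⟨b, hb, hb'⟩ := (e.swap h).gap (j' + p') (j + p)
  rw [← e.Phi_gap h] at ha hb
  have k : kap p q p' q' (j + p) (j' + p') = kap p q p' q' j j' := by simp only [kap]; ring
  rw [k] at hb
  refine ⟨a + b, by rw [Psi, Psi]; push_cast; linarith, ?_⟩
  rw [e.kap_swap] at ha' hb'
  rw [show (q : ℤ) * (2 * (j' + p') + 1 - q') - q' * (2 * (j + p) + 1 - q) =
    q * (2 * j' + 1 - q') - q' * (2 * j + 1 - q) + 2 by linear_combination 2 * e.detZ] at hb'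
  generalize (q : ℤ) * (2 * j' + 1 - q') - q' * (2 * j + 1 - q) = l at *
  rw [Nat.add_eq_zero_iff, ha', hb', abs_lt, abs_lt, ← lt_sub_iff_add_lt, abs_lt]
  omega

/-- a peg free pair lies in one gap -/
theorem same_gap (h : 0 < q') {j j' : ℤ}
    (H : |(q : ℤ) * (2 * j' + 1 - q') - q' * (2 * j + 1 - q)| + 1 < q + q') : j / q = j' / q' := by
  have hq : (0 : ℤ) < q := by have := e.hq; omega
  have hq' : (0 : ℤ) < q' := by omega
  have h0 := Int.emod_nonneg j hq.ne'
  have h1 := Int.emod_lt_of_pos j hq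
  have h2 := Int.emod_add_mul_ediv j q
  have h3 := Int.emod_nonneg j' hq'.ne'
  have h4 := Int.emod_lt_of_pos j' hq'
  have h5 := Int.emod_add_mul_ediv j' q'
  rw [← lt_sub_iff_add_lt, abs_lt] at H
  generalize j / q = a at *
  generalize j' / q' = a' at *
  generalize j % q = c at *
  generalize j' % q' = c' at *
  subst h2 h5
  obtain ⟨H1, H2⟩ := H
  rcases lt_trichotomy a a' with hh | hh | hh
  · have : (q : ℤ) * q' ≤ q * q' * (a' - a) := le_mul_of_one_le_right (by positivity) (by omega)
    nlinarith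
  · exact hh
  · have : (q : ℤ) * q' ≤ q * q' * (a - a') := le_mul_of_one_le_right (by positivity) (by omega)
    nlinarith

end Edge

end Crest.Agent.X212.Lens17
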