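import Mathlib

/-!
# Row 212 (helper17): the correction terms of lens spaces (Ozsváth–Szabó recursion)

`d p q j`, its extension `Phi p q j` to all integers `j`, the shift identity.
-/

set_option autoImplicit false

namespace Crest.Agent.X212.Lens17

/-- the quadratic term of the recursion -/
def Q (p q : ℕ) (j : ℤ) : ℚ := -1 / 4 + (2 * (j : ℚ) + 1 - p - q) ^ 2 / (4 * p * q)

/-- `d(L(p,q), j)`, `L(p,q)` = `p/q` surgery on the unknot; only `j mod p` matters -/
def d : ℕ → ℕ → ℤ → ℚ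
  | _, 0, _ => 0
  | p, q + 1, j => Q p (q + 1) (j % p) - d (q + 1) (p % (q + 1)) (j % p)
termination_by _ q _ => q
decreasing_by exact Nat.mod_lt _ (Nat.succ_pos _)

/-- the recursion formula read at every integer `j` -/
def Phi (p q : ℕ) (j : ℤ) : ℚ := Q p q j - d q p j

/-- degree of the diagonal letter at position `j` -/
def Psi (p q : ℕ) (j : ℤ) : ℚ := (Phi p q j + Phi p q (j + p)) / 2

theorem Q_comm (p q : ℕ) (j : ℤ) : Q p q j = Q q p j := by
  unfold Q; rw [show (4 : ℚ) * p * q = 4 * q * p by ring]; ring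

@[simp] theorem d_zero (p : ℕ) (j : ℤ) : d p 0 j = 0 := by rw [d]

theorem d_pos (p : ℕ) {q : ℕ} (hq : 0 < q) (j : ℤ) :
    d p q j = Q p q (j % p) - d q (p % q) (j % p) := by
  obtain ⟨q, rfl⟩ := Nat.exists_eq_succ_of_ne_zero hq.ne'
  rw [d]

theorem d_emod (p q : ℕ) (j : ℤ) : d p q (j % p) = d p q j := by
  rcases q.eq_zero_or_pos with rfl | hq
  · simp
  · rw [d_pos p hq, d_pos p hq, Int.emod_emod_of_dvd _ dvd_rfl]

theorem d_congr (p q : ℕ) {j j' : ℤ} (h : j % p = j' % p) : d p q j = d p q j' := by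
  rw [← d_emod, h, d_emod]

theorem d_per (p q : ℕ) (j c : ℤ) : d p q (j + p * c) = d p q j :=
  d_congr p q (Int.add_mul_emod_self_left _ _ _)

theorem d_add_self (p q : ℕ) (j : ℤ) : d p q (j + p) = d p q j := by
  simpa using d_per p q j 1

theorem d_mod {p q : ℕ} (hp : 0 < p) (h : Nat.Coprime p q) (j : ℤ) : d p (q % p) j = d p q j := by
  rcases lt_or_ge q p with hq | hq
  · rw [Nat.mod_eq_of_lt hq]
  rcases hq.eq_or_lt with rfl | hq
  · obtain rfl : p = 1 := by simpa using h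
    rw [d_pos 1 one_pos]; simp [Q]; norm_num
  have h0 : (0 : ℤ) ≤ j % p := Int.emod_nonneg _ (by omega)
  have h1 : j % p < p := Int.emod_lt_of_pos _ (by omega)
  rw [d_pos p (hp.trans hq), Nat.mod_eq_of_lt hq, d_pos q hp,
    Int.emod_eq_of_lt h0 (by omega), Q_comm q p, d_emod]
  ring

theorem d_add {p q : ℕ} (hp : 0 < p) (h : Nat.Coprime p q) (j : ℤ) : d p (q + p) j = d p q j := by
  rw [← d_mod hp (by simpa using h), Nat.add_mod_right, d_mod hp h]

theorem d_eq_Phi_emod {p q : ℕ} (hq : 0 < q) (h : Nat.Coprime p q) (j : ℤ) :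
    d p q j = Phi p q (j % p) := by
  rw [d_pos p hq, Phi, d_mod hq h.symm]

theorem d_one (q : ℕ) (j : ℤ) : d 1 q j = 0 := by
  rw [← d_mod one_pos (by simp), Nat.mod_one, d_zero]

theorem Phi_add_q {p q : ℕ} (hp : 0 < p) (hq : 0 < q) (j : ℤ) :
    Phi p q (j + q) - Phi p q j = (2 * (j : ℚ) + 1 - p) / p := by
  have : (p : ℚ) ≠ 0 := by positivity
  have : (q : ℚ) ≠ 0 := by positivity
  rw [Phi, Phi, d_add_self, Q, Q]; push_cast; field_simp; ring

theorem cast_emod {q : ℕ} (j : ℤ) : ((j % q : ℤ) : ℚ) = j - q * ((j / q : ℤ) : ℚ) := by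
  have := Int.emod_add_mul_ediv j q
  rw [eq_sub_iff_add_eq]; exact_mod_cast this

theorem Phi_add_p_of {p q : ℕ} (hp : 0 < p) (hq : 0 < q)
    (H : ∀ j : ℤ, d q p (j + p) - d q p j = (2 * ((j % q : ℤ) : ℚ) + 1 - q) / q) (j : ℤ) :
    Phi p q (j + p) = Phi p q j + 2 * ((j / q : ℤ) : ℚ) := by
  have : (p : ℚ) ≠ 0 := by positivity
  have : (q : ℚ) ≠ 0 := by positivity
  have h := H j
  rw [sub_eq_iff_eq_add, cast_emod] at h
  rw [Phi, Phi, h, Q, Q]; push_cast; field_simp; ring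

theorem Phi_eq_d_of {p q : ℕ} (hp : 0 < p) (hq : 0 < q) (h : Nat.Coprime p q)
    (H : ∀ j : ℤ, Phi p q (j + p) = Phi p q j + 2 * ((j / q : ℤ) : ℚ)) (j : ℤ) (h0 : 0 ≤ j)
    (h1 : j < p + q) : Phi p q j = d p q j := by
  obtain ⟨n, rfl⟩ := Int.eq_ofNat_of_zero_le h0
  induction n using Nat.strong_induction_on with
  | _ n ih =>
    rcases lt_or_ge n p with hn | hn
    · rw [d_eq_Phi_emod hq h, Int.emod_eq_of_lt h0 (by omega)]
    · obtain ⟨m, rfl⟩ := Nat.exists_eq_add_of_le' hn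
      push_cast
      rw [H, d_add_self, ih m (by omega) (by omega) (by omega),
        Int.ediv_eq_zero_of_lt (by omega) (by push_cast at h1; omega)]
      simp

/-- SHIFT -/
theorem shift {p q : ℕ} (hp : 0 < p) (h : Nat.Coprime p q) (j : ℤ) :
    d p q (j + q) - d p q j = (2 * ((j % p : ℤ) : ℚ) + 1 - p) / p := by
  induction q using Nat.strong_induction_on generalizing p j with
  | _ q ih =>
    rcases q.eq_zero_or_pos with rfl | hq
    · obtain rfl : p = 1 := by simpa using h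
      simp
    have H : ∀ j : ℤ, d q p (j + p) - d q p j = (2 * ((j % q : ℤ) : ℚ) + 1 - q) / q := fun j => by
      have hc : Nat.Coprime q (p % q) := by
        rw [Nat.Coprime, Nat.gcd_comm, ← Nat.gcd_rec]; exact h.symm
      rw [← ih (p % q) (Nat.mod_lt _ hq) hq hc j, d_mod hq h.symm, d_mod hq h.symm]
      congr 1
      exact d_congr _ _ (by push_cast; simp)
    have h0 : (0 : ℤ) ≤ j % p := Int.emod_nonneg _ (by omega)
    have h1 : j % p < p := Int.emod_lt_of_pos _ (by omega)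
    have E := Phi_eq_d_of hp hq h (Phi_add_p_of hp hq H)
    rw [← Phi_add_q hp hq, E _ (by omega) (by omega), E _ h0 (by omega), d_emod]
    congr 1
    exact d_congr _ _ (by simp)

theorem Phi_add_p {p q : ℕ} (hp : 0 < p) (hq : 0 < q) (h : Nat.Coprime p q) (j : ℤ) :
    Phi p q (j + p) = Phi p q j + 2 * ((j / q : ℤ) : ℚ) :=
  Phi_add_p_of hp hq (shift hq h.symm) j

theorem Phi_eq_d {p q : ℕ} (hp : 0 < p) (hq : 0 < q) (h : Nat.Coprime p q) {j : ℤ} (h0 : 0 ≤ j)
    (h1 : j < p + q) : Phi p q j = d p q j :=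
  Phi_eq_d_of hp hq h (Phi_add_p hp hq h) j h0 h1

/-- `Psi = Phi + ⌊j/q⌋` -/
theorem Psi_eq {p q : ℕ} (hp : 0 < p) (hq : 0 < q) (h : Nat.Coprime p q) (j : ℤ) :
    Psi p q j = Phi p q j + ((j / q : ℤ) : ℚ) := by
  rw [Psi, Phi_add_p hp hq h]; ring

/-- on `[0, p+q)` the diagonal degree is `d + ⌊j/q⌋` -/
theorem Psi_eq_d {p q : ℕ} (hp : 0 < p) (hq : 0 < q) (h : Nat.Coprime p q) {j : ℤ} (h0 : 0 ≤ j)
    (h1 : j < p + q) : Psi p q j = d p q j + ((j / q : ℤ) : ℚ) := by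
  rw [Psi_eq hp hq h, Phi_eq_d hp hq h h0 h1]

end Crest.Agent.X212.Lens17
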