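import Crest.Agent.X212.Lens17.Gap
import Crest.Agent.X212.Lens8.Edge

/-! # Row 212 (helper17): `Lens8.dL = Lens17.d`; the exact gap theorems in the format of `Lens8` -/

set_option autoImplicit false

namespace Crest.Agent.X212.Lens17

theorem dL_eq {p q : ℕ} (hp : 0 < p) (h : Nat.Coprime p q) (j : ℤ) : Lens8.dL p q j = d p q j := by
  induction q using Nat.strong_induction_on generalizing p j with
  | _ q ih =>
    rcases q.eq_zero_or_pos with rfl | hq
    · obtain rfl : p = 1 := by simpa using h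
      simp
    have h0 : (0 : ℤ) ≤ j % p := Int.emod_nonneg _ (by omega)
    have h1 : j % p < p := Int.emod_lt_of_pos _ (by omega)
    have hc : Nat.Coprime q (p % q) := by
      rw [Nat.Coprime, Nat.gcd_comm, ← Nat.gcd_rec]; exact h.symm
    have r := Lens8.dL_rec hp hq h h0 (by omega)
    rw [d_pos p hq, ← ih (p % q) (Nat.mod_lt _ hq) hq hc, Lens8.dL_mod, ← Lens8.dL_emod, Q]
    linarith

theorem Phi_eq8 {p q : ℕ} (hq : 0 < q) (h : Nat.Coprime p q) (j : ℤ) :
    Lens8.Phi p q j = Phi p q j := by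
  rw [Lens8.Phi, dL_eq hq h.symm, Phi, Q]

theorem deg_eq8 (p q p' q' : ℕ) (j j' : ℤ) :
    Lens8.deg p q p' q' j j' = deg p p' (kap p q p' q' j j') := by
  rw [Lens8.deg, deg, show Lens8.kg p q p' q' j j' = -kap p q p' q' j j' by
    simp only [Lens8.kg, kap]; ring]
  push_cast; ring

theorem edge8 {p q p' q' : ℕ} (hp : 0 < p) (h : p' * q = p * q' + 1) : Edge p q p' q' :=
  ⟨hp, by rw [mul_comm, h]⟩

/-- the defect is an even natural number, zero iff `|K·g| < p + p'` -/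
theorem D_gap {p q p' q' : ℕ} (hp : 0 < p) (h : p' * q = p * q' + 1) (j j' : ℤ) :
    ∃ k : ℕ, Lens8.D p q p' q' j j' = 2 * k ∧ (k = 0 ↔ |Lens8.kg p q p' q' j j'| < p + p') := by
  have e := edge8 hp h
  obtain ⟨k, h1, h2⟩ := e.gap j j'
  refine ⟨k, ?_, ?_⟩
  · rw [Lens8.D, dL_eq hp e.cop, dL_eq e.hp' e.cop', deg_eq8]; exact h1
  · rw [h2, show Lens8.kg p q p' q' j j' = -kap p q p' q' j j' by simp only [Lens8.kg, kap]; ring,
      abs_neg]

/-- peg free pairs (`1 - q ≤ q j' - q' j ≤ q' - 1`): same gap, and the degree is the difference of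
the diagonal degrees `Phi + ⌊j/q⌋` -/
theorem peg_free {p q p' q' : ℕ} (hp : 0 < p) (hq' : 0 < q') (h : p' * q = p * q' + 1) {j j' : ℤ}
    (h0 : 1 - (q : ℤ) ≤ q * j' - q' * j) (h1 : (q : ℤ) * j' - q' * j ≤ q' - 1) :
    j / q = j' / q' ∧ Lens8.deg p q p' q' j j' = Lens8.Phi p' q' j' - Lens8.Phi p q j := by
  have e := edge8 hp h
  have H : |(q : ℤ) * (2 * j' + 1 - q') - q' * (2 * j + 1 - q)| + 1 < q + q' := by
    rw [show (q : ℤ) * (2 * j' + 1 - q') - q' * (2 * j + 1 - q) = 2 * (q * j' - q' * j) + q - q' by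
      ring, ← lt_sub_iff_add_lt, abs_lt]
    omega
  have g := e.same_gap hq' H
  obtain ⟨k, k1, k2⟩ := e.Psi_gap hq' j j'
  rw [k2.2 H, Psi_eq e.hp' hq' e.cop', Psi_eq hp e.hq e.cop, g] at k1
  refine ⟨g, ?_⟩
  rw [deg_eq8, Phi_eq8 hq' e.cop', Phi_eq8 e.hq e.cop]
  simp only [Nat.cast_zero] at k1; linarith

end Crest.Agent.X212.Lens17
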